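import Vale.Agent.P032X.H642.Rh
import Vale.Agent.P032X.H350.Surg
import Vale.Agent.P032W.S5.H80.Anti

/-!
# P032: the word of a two-pair centre with harmless special ends

`Hq T a b e f y`: at most three colours, or the palette `{a, b, e, f}` and one of the colours `e`, `f` is
in all palettes of `S(y)` inside `T y` (`Hm` of `H642/AbefG.lean`).  `no_nbr`: a four coloured harmless
point of the closure of the exact `ab`-arcs has no point of this closure at distance one on `S(z)`.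
`preW_of_hm`: the word of `S(z)` satisfies all axioms of `PreW`.
-/

open Set Filter Topology Metric

noncomputable section

namespace Vale.Agent.P032.H880

open Vale.Agent.P032.Six Vale.Agent.P032.S5.H767 Vale.Agent.P032.H350 Vale.Agent.P032.H642

variable {U : Fin 6 → Set ℂ} {T : ℂ → Set (Fin 6)} {z y y' q : ℂ} {a b c d e f g p t o : Fin 6}

/-- harmless (`Hm` of `H642/AbefG.lean`) -/
abbrev Hq (T : ℂ → Set (Fin 6)) (a b e f : Fin 6) (y : ℂ) : Prop :=
  (T y).ncard ≤ 3 ∨ T y = {a, b, e, f} ∧ ((∀ w, dist w y = 1 → T w ⊆ T y → f ∈ T w) ∨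
    ∀ w, dist w y = 1 → T w ⊆ T y → e ∈ T w)

/-- both missing colours at two points at distance one of the circle: at most three colours -/
def Adj (T : ℂ → Set (Fin 6)) (z : ℂ) : Prop :=
  ∀ y y', dist y z = 1 → dist y' z = 1 → dist y y' = 1 → (T z)ᶜ ⊆ T y → (T z)ᶜ ⊆ T y' →
    (T y).ncard ≤ 3

theorem sub4 (a b e f : Fin 6) : ({a, b, e} : Set (Fin 6)) ⊆ {a, b, e, f} := by
  intro i; simp only [mem_insert_iff, mem_singleton_iff]; tauto

theorem sub4' (a b e f : Fin 6) : ({a, b, f} : Set (Fin 6)) ⊆ {a, b, e, f} := by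
  intro i; simp only [mem_insert_iff, mem_singleton_iff]; tauto

theorem swap4 (a b e f : Fin 6) : ({a, b, e, f} : Set (Fin 6)) = {a, b, f, e} := by
  ext i; simp only [mem_insert_iff, mem_singleton_iff]; tauto

theorem pick {s : Set (Fin 6)} (he : e ∈ s) (ae : a ≠ e) (be : b ≠ e) (hef : e ≠ f)
    (h : s ⊆ {a, b, e} ∨ s ⊆ {a, b, f}) : s ⊆ {a, b, e} := by
  rcases h with h1 | h1
  · exact h1
  · rcases h1 he with h2 | h2 | h2
    exacts [absurd h2.symm ae, absurd h2.symm be, absurd h2 hef]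

theorem sub_of_or {s : Set (Fin 6)} (h : s ⊆ {a, b, e} ∨ s ⊆ {a, b, f}) : s ⊆ {a, b, e, f} := by
  rcases h with h1 | h1
  · exact h1.trans (sub4 a b e f)
  · exact h1.trans (sub4' a b e f)

theorem nbr_core (h : Irr U T) (hmn : Mn4 U T) (hyz : dist y z = 1) (hy'z : dist y' z = 1)
    (hyy : dist y' y = 1) (nd : [t, o, g, p].Nodup) (hT : T y = {t, o, g, p})
    (one : ∀ w, dist w y = 1 → T w ⊆ T y → g ∈ T w) (hqy : dist q y = 1) (hqs : T q ⊆ T y)
    (hq2 : (T q).ncard = 2) (ht : t ∈ T q) (hT' : T y' ⊆ {t, o, g}) (htz : t ∈ T z) : False := by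
  simp only [List.nodup_cons, List.mem_cons, List.not_mem_nil, or_false, not_or, List.nodup_nil,
    and_true, not_false_eq_true] at nd
  obtain ⟨⟨hto, tg, tp⟩, ⟨og, op⟩, gp⟩ := nd
  have h4 : (T y).ncard = 4 := by
    rw [hT, Set.ncard_insert_of_notMem (by simp [hto, tg, tp]),
      Set.ncard_insert_of_notMem (by simp [og, op]), Set.ncard_pair gp]
  have face : Fc T y {o, g, p} := by
    intro w hw hws
    have hwy : T w ⊆ T y := hws.trans (by
      rw [hT]; intro i; simp only [mem_insert_iff, mem_singleton_iff]; tauto)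
    obtain ⟨q', -, hq'y, -, hq's, hq'2, hq'3⟩ := h.arc_of_sub hw hwy univ_mem
    have hq'T : T q' ⊆ T y := hq's.trans hwy
    have hc' : (T q').ncard = 2 := by
      have := Set.ncard_sdiff hq'T (Set.toFinite _)
      omega
    have hg : g ∈ T q := one q hqy hqs
    have hg' : g ∈ T q' := one q' hq'y hq'T
    rcases h.pairs_disjoint hmn h4 hqy hq'y hqs hq'T hq2 hc' with h1 | h1
    · have h2 : t ∈ ({o, g, p} : Set (Fin 6)) := hws (hq's (h1 ▸ ht))
      rcases h2 with h2 | h2 | h2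
      exacts [hto h2, tg h2, tp h2]
    · exact Set.disjoint_left.1 h1 hg hg'
  exact lemmaFz h hy'z hyz hyy face (t := t) (hT'.trans (by
    intro i; simp only [mem_insert_iff, mem_singleton_iff]; tauto)) htz

theorem nbr_aux (h : Irr U T) (hmn : Mn4 U T) (hyz : dist y z = 1) (hy'z : dist y' z = 1)
    (hyy : dist y' y = 1) (nd : [a, b, g, p].Nodup) (hT : T y = {a, b, g, p})
    (one : ∀ w, dist w y = 1 → T w ⊆ T y → g ∈ T w) (hT' : T y' ⊆ {a, b, g}) (ha : a ∈ T z)
    (hb : b ∈ T z) : False := by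
  have hsub : T y' ⊆ T y := hT'.trans (by
    rw [hT]; intro i; simp only [mem_insert_iff, mem_singleton_iff]; tauto)
  obtain ⟨q, -, hqy, -, hqs, hq2, hq3⟩ := h.arc_of_sub hyy hsub univ_mem
  have hqT : T q ⊆ T y := hqs.trans hsub
  have nd' := nd
  simp only [List.nodup_cons, List.mem_cons, List.not_mem_nil, or_false, not_or, List.nodup_nil,
    and_true, not_false_eq_true] at nd'
  obtain ⟨⟨ab, ag, ap⟩, ⟨bg, bp⟩, gp⟩ := nd'
  have h4 : (T y).ncard = 4 := by
    rw [hT, Set.ncard_insert_of_notMem (by simp [ab, ag, ap]),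
      Set.ncard_insert_of_notMem (by simp [bg, bp]), Set.ncard_pair gp]
  have hc : (T q).ncard = 2 := by
    have := Set.ncard_sdiff hqT (Set.toFinite _)
    omega
  by_cases haq : a ∈ T q
  · exact nbr_core h hmn hyz hy'z hyy nd hT one hqy hqT hc haq hT' ha
  by_cases hbq : b ∈ T q
  · refine nbr_core h hmn hyz hy'z hyy (t := b) (o := a) (g := g) (p := p) ?_ ?_ one hqy hqT hc hbq
      ?_ hb
    · simp only [List.nodup_cons, List.mem_cons, List.not_mem_nil, or_false, not_or,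
        List.nodup_nil, and_true, not_false_eq_true]
      exact ⟨⟨Ne.symm ab, bg, bp⟩, ⟨ag, ap⟩, gp⟩
    · rw [hT]; exact Set.insert_comm _ _ _
    · intro i hi; have := hT' hi; simp only [mem_insert_iff, mem_singleton_iff] at this ⊢; tauto
  · have h1 : T q ⊆ {g} := by
      intro i hi
      rcases hT' (hqs hi) with h2 | h2 | h2
      · exact absurd (h2 ▸ hi) haq
      · exact absurd (h2 ▸ hi) hbq
      · exact h2
    have := Set.ncard_le_ncard h1 (Set.toFinite _)
    rw [Set.ncard_singleton] at this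
    omega

/-- the colours of a clean point of the closure of the exact `ab`-arcs -/
theorem clean_sub (C : Ctr U T z a b c d e f) (hcd : (Ex T z {c, d}).Nonempty)
    (hy : y ∈ closure (Ex T z {a, b})) (h3 : (T y).ncard ≤ 3) :
    T y ⊆ {a, b, e} ∨ T y ⊆ {a, b, f} := by
  obtain ⟨⟨ab, ac, ad, ae, af⟩, ⟨bc, bd, be, bf⟩, ⟨cd, ce, cf⟩, ⟨de, df⟩, ef⟩ := C.sep
  have h := C.irr
  have hyz := dist_of_closure hy
  have hsub := sub_of_closure h hy
  have ha : a ∈ T y := hsub (Or.inl rfl)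
  have hb : b ∈ T y := hsub (Or.inr rfl)
  obtain ⟨q0, hq0⟩ := hcd
  obtain ⟨q, -, hqz, hqy, hqy2, hqJ⟩ := exists_generic (y := y) hq0.1 hq0.2
  have hq : q ∈ Ex T z {c, d} := ⟨hqz, hqJ⟩
  have hqT : T q = {c, d} := ex_self hq
  have key : ∀ x, x ∈ ({c, d} : Set (Fin 6)) → T z ⊆ insert x (T y) → False := by
    intro x hx hz'
    rcases h.lemmaX (u := y) (p := z) (by rw [dist_comm]; exact hyz) h3 hz'
      (by rw [dist_comm]; exact hq.1) (h.sub _ (by rw [hqT]; exact hx)) with h4 | h4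
    · exact hqy h4
    · exact hqy2 h4
  have hcn : c ∉ T y := by
    intro hc
    refine key d (by simp) ?_
    rw [C.pal]
    rintro i (rfl | rfl | rfl | rfl)
    exacts [Or.inr ha, Or.inr hb, Or.inr hc, Or.inl rfl]
  have hdn : d ∉ T y := by
    intro hd
    refine key c (by simp) ?_
    rw [C.pal]
    rintro i (rfl | rfl | rfl | rfl)
    exacts [Or.inr ha, Or.inr hb, Or.inl rfl, Or.inr hd]
  by_cases he : e ∈ T y
  · have hf : f ∉ T y := by
      intro hf
      have := four_le ha hb he hf (by simp [ab, ae, af, be, bf, ef])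
      omega
    left
    intro i hi
    rcases C.all i with rfl | rfl | rfl | rfl | rfl | rfl
    · simp
    · simp
    · exact absurd hi hcn
    · exact absurd hi hdn
    · simp
    · exact absurd hi hf
  · right
    intro i hi
    rcases C.all i with rfl | rfl | rfl | rfl | rfl | rfl
    · simp
    · simp
    · exact absurd hi hcn
    · exact absurd hi hdn
    · exact absurd hi he
    · simp

/-- **A four coloured harmless end has no neighbour in the closure of the arcs of its pair.** -/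
theorem no_nbr (hmn : Mn4 U T) (C : Ctr U T z a b c d e f) (hcd : (Ex T z {c, d}).Nonempty)
    (adj : Adj T z) (hy : y ∈ closure (Ex T z {a, b})) (hy' : y' ∈ closure (Ex T z {a, b}))
    (hyy : dist y y' = 1) (hH : Hq T a b e f y) (hH' : Hq T a b e f y') :
    (T y).ncard ≤ 3 := by
  by_contra hcon
  obtain ⟨⟨ab, ac, ad, ae, af⟩, ⟨bc, bd, be, bf⟩, ⟨cd, ce, cf⟩, ⟨de, df⟩, ef⟩ := C.sep
  have h := C.irr
  have hyz := dist_of_closure hy
  have hy'z := dist_of_closure hy'
  have hyy' : dist y' y = 1 := by rw [dist_comm]; exact hyy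
  have haz : a ∈ T z := by rw [C.pal]; simp
  have hbz : b ∈ T z := by rw [C.pal]; simp
  obtain ⟨hT, hone⟩ := hH.resolve_left hcon
  have cmp : ∀ {w : ℂ}, e ∈ T w → f ∈ T w → (T z)ᶜ ⊆ T w := by
    intro w he hf i hi
    rcases C.miss hi with rfl | rfl
    exacts [he, hf]
  have he : e ∈ T y := by rw [hT]; simp
  have hf : f ∈ T y := by rw [hT]; simp
  by_cases hef' : e ∈ T y' ∧ f ∈ T y'
  · exact hcon (adj y y' hyz hy'z hyy (cmp he hf) (cmp hef'.1 hef'.2))
  have h3' : (T y').ncard ≤ 3 := by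
    rcases hH' with h3 | ⟨hT', -⟩
    · exact h3
    · exact absurd ⟨by rw [hT']; simp, by rw [hT']; simp⟩ hef'
  have hsub := sub_of_closure h hy'
  have ha' : a ∈ T y' := hsub (Or.inl rfl)
  have hb' : b ∈ T y' := hsub (Or.inr rfl)
  have hT2 : T y = {a, b, f, e} := hT.trans (swap4 a b e f)
  have nd1 : [a, b, e, f].Nodup := by simp [ab, ae, af, be, bf, ef]
  have nd2 : [a, b, f, e].Nodup := by simp [ab, ae, af, be, bf, Ne.symm ef]
  have hcl := clean_sub C hcd hy' h3'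
  have hsy : T y' ⊆ T y := by rw [hT]; exact sub_of_or hcl
  rcases hone with hone | hone
  · exact nbr_aux h hmn hyz hy'z hyy' nd2 hT2 hone
      (pick (hone y' hyy' hsy) af bf ef.symm hcl.symm) haz hbz
  · exact nbr_aux h hmn hyz hy'z hyy' nd1 hT hone (pick (hone y' hyy' hsy) ae be ef hcl) haz hbz

/-- data of a circle with harmless ends -/
structure HC (U : Fin 6 → Set ℂ) (T : ℂ → Set (Fin 6)) (z : ℂ) (a b c d e f : Fin 6) : Prop where
  ctr : Ctr U T z a b c d e f
  eab : (Ex T z {a, b}).Nonempty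
  ecd : (Ex T z {c, d}).Nonempty
  hab : ∀ y ∈ closure (Ex T z {a, b}), Hq T a b e f y
  hcd : ∀ y ∈ closure (Ex T z {c, d}), Hq T c d e f y
  adj : Adj T z

theorem HC.dpt (K : HC U T z a b c d e f) : DPt T z a b c d := by
  obtain ⟨⟨ab, ac, ad, ae, af⟩, ⟨bc, bd, be, bf⟩, ⟨cd, ce, cf⟩, ⟨de, df⟩, ef⟩ := K.ctr.sep
  obtain ⟨p, hp⟩ := K.eab
  obtain ⟨p', hp'⟩ := K.ecd
  exact ⟨K.ctr.pal, ac, ad, bc, bd, ab, cd, ⟨p, hp⟩, ⟨p', hp'⟩⟩

/-- two neighbours with the same pair letter have at most three colours -/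
theorem HC.pair_le (K : HC U T z a b c d e f) (hmn : Mn4 U T) {l : Fin 4} (h2 : 2 ≤ l.val)
    (hyy : dist y y' = 1) (hl : y ∈ Lt T z a b c d e f l) (hl' : y' ∈ Lt T z a b c d e f l) :
    (T y).ncard ≤ 3 ∧ (T y').ncard ≤ 3 := by
  have hyy' : dist y' y = 1 := by rw [dist_comm]; exact hyy
  fin_cases l
  · exact absurd h2 (by decide)
  · exact absurd h2 (by decide)
  · exact ⟨no_nbr hmn K.ctr K.ecd K.adj hl hl' hyy (K.hab _ hl) (K.hab _ hl'),
      no_nbr hmn K.ctr K.ecd K.adj hl' hl hyy' (K.hab _ hl') (K.hab _ hl)⟩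
  · exact ⟨no_nbr hmn K.ctr.swapAC K.eab K.adj hl hl' hyy (K.hcd _ hl) (K.hcd _ hl'),
      no_nbr hmn K.ctr.swapAC K.eab K.adj hl' hl hyy' (K.hcd _ hl') (K.hcd _ hl)⟩

/-- **The word** of a circle with harmless ends -/
theorem HC.preW (K : HC U T z a b c d e f) (hmn : Mn4 U T) : PreW (Xs T z a b c d e f) := by
  have C := K.ctr
  obtain ⟨⟨ab, ac, ad, ae, af⟩, ⟨bc, bd, be, bf⟩, ⟨cd, ce, cf⟩, ⟨de, df⟩, ef⟩ := C.sep
  have cmp : ∀ {w : ℂ}, e ∈ T w → f ∈ T w → (T z)ᶜ ⊆ T w := by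
    intro w he hf i hi
    rcases C.miss hi with rfl | rfl
    exacts [he, hf]
  have e01 : ∀ n : Fin 4, ¬ 2 ≤ n.val → n = 0 ∨ n = 1 := by decide
  -- swap
  have swap : ∀ (u : ℝ) (l m : Fin 4), u ∈ Xs T z a b c d e f l → u + 1 ∈ Xs T z a b c d e f l →
      u ∈ Xs T z a b c d e f m → u + 1 ∈ Xs T z a b c d e f m → l = m := by
    intro u l m h1 h2 h4 h5
    by_contra hlm
    have hd := dist_pt_one z u
    by_cases hl2 : 2 ≤ l.val
    · have h3 := K.pair_le hmn hl2 hd h1 h2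
      exact hlm (C.x_swap h3.1 h3.2 h1 h2 h4 h5)
    by_cases hm2 : 2 ≤ m.val
    · have h3 := K.pair_le hmn hm2 hd h4 h5
      exact hlm (C.x_swap h3.1 h3.2 h1 h2 h4 h5)
    have hef : ∀ w : ℝ, w ∈ Xs T z a b c d e f l → w ∈ Xs T z a b c d e f m →
        (T z)ᶜ ⊆ T (pt z w) := by
      intro w k1 k2
      rcases e01 l hl2 with rfl | rfl <;> rcases e01 m hm2 with rfl | rfl
      · exact absurd rfl hlm
      · exact cmp k1.2 k2.2
      · exact cmp k2.2 k1.2
      · exact absurd rfl hlm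
    have s1 := hef u h1 h4
    have s2 := hef (u + 1) h2 h5
    have t1 := K.adj _ _ (dist_pt z u) (dist_pt z (u + 1)) hd s1 s2
    have t2 := K.adj _ _ (dist_pt z (u + 1)) (dist_pt z u) (by rw [dist_comm]; exact hd) s2 s1
    exact hlm (C.x_swap t1 t2 h1 h2 h4 h5)
  refine ⟨C.x_closed, C.x_cover, C.x_per, ?_, ?_, fun u l h h' => C.x_own h h',
    fun u l h h' => C.x_own' h h', swap, ?_⟩
  · -- anti
    intro u h2 h3
    have k2 := sub_of_closure C.irr (P := {a, b}) (y := pt z u) h2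
    have k3 := sub_of_closure C.irr (P := {c, d}) (y := pt z (u + 3)) h3
    rw [pt_three] at k3
    exact C.irr.anti K.dpt (dist_pt z u) (C.irr.sub _ (k2 (Or.inl rfl)))
      (C.irr.sub _ (k2 (Or.inr rfl))) (C.irr.sub _ (k3 (Or.inl rfl))) (C.irr.sub _ (k3 (Or.inr rfl)))
  · -- ac
    intro u h2 h3
    have k3 := sub_of_closure C.irr (P := {c, d}) (y := pt z u) h3
    rcases K.hab _ h2 with h4 | ⟨hT, -⟩
    · exact C.x_ac h4 h2 h3
    · have h5 : c ∈ T (pt z u) := k3 (Or.inl rfl)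
      rw [hT] at h5
      rcases h5 with h5 | h5 | h5 | h5
      exacts [ac h5.symm, bc h5.symm, ce h5, cf h5]
  · -- dbl
    intro u l m hlm h1 h2 h4 h5
    obtain ⟨k1, k2⟩ := pt_off z u
    have e1 : u + 1 + 1 = u + 2 := by ring
    have d2 := dist_pt_one z (u + 1)
    rw [e1] at d2
    have d1 : dist (pt z (u + 1)) (pt z u) = 1 := by rw [dist_comm]; exact dist_pt_one z u
    have k1' : pt z u ≠ pt z (u + 2) := k1.symm
    have k2' : pt z u + pt z (u + 2) ≠ 2 * pt z (u + 1) := by rw [add_comm]; exact k2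
    have e23 : ∀ n : Fin 4, ¬ n.val < 2 → n = 2 ∨ n = 3 := by decide
    constructor
    · by_contra hcon
      have h3 := K.pair_le hmn (not_lt.1 hcon) d1 h2 h1
      have c1 := Lt_col C.irr h2
      have c2 := Lt_col C.irr h1
      rcases e23 l hcon with rfl | rfl
      · exact C.dblPair hlm d1 d2 k1 k2 h3.1 h3.2 ab (dist_pt z _) (dist_pt z _) (c1 (Or.inl rfl))
          (c1 (Or.inr rfl)) (c2 (Or.inl rfl)) (c2 (Or.inr rfl))
          (fun h => C.ne_col hlm (Or.inl rfl) h rfl) (fun h => C.ne_col hlm (Or.inr rfl) h rfl)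
          h4 h5
      · exact C.dblPair hlm d1 d2 k1 k2 h3.1 h3.2 cd (dist_pt z _) (dist_pt z _) (c1 (Or.inl rfl))
          (c1 (Or.inr rfl)) (c2 (Or.inl rfl)) (c2 (Or.inr rfl))
          (fun h => C.ne_col hlm (Or.inl rfl) h rfl) (fun h => C.ne_col hlm (Or.inr rfl) h rfl)
          h4 h5
    · by_contra hcon
      have h3 := K.pair_le hmn (not_lt.1 hcon) d2 h4 h5
      have c1 := Lt_col C.irr h4
      have c2 := Lt_col C.irr h5
      rcases e23 m hcon with rfl | rfl
      · exact C.dblPair hlm.symm d2 d1 k1' k2' h3.1 h3.2 ab (dist_pt z _) (dist_pt z _)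
          (c1 (Or.inl rfl)) (c1 (Or.inr rfl)) (c2 (Or.inl rfl)) (c2 (Or.inr rfl))
          (fun h => C.ne_col hlm.symm (Or.inl rfl) h rfl)
          (fun h => C.ne_col hlm.symm (Or.inr rfl) h rfl) h2 h1
      · exact C.dblPair hlm.symm d2 d1 k1' k2' h3.1 h3.2 cd (dist_pt z _) (dist_pt z _)
          (c1 (Or.inl rfl)) (c1 (Or.inr rfl)) (c2 (Or.inl rfl)) (c2 (Or.inr rfl))
          (fun h => C.ne_col hlm.symm (Or.inl rfl) h rfl)
          (fun h => C.ne_col hlm.symm (Or.inr rfl) h rfl) h2 h1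

/-- **The word** of a two-pair centre with harmless ends and without ties -/
theorem preW_of_hm (hmn : Mn4 U T) (C : Ctr U T z a b c d e f) (eab : (Ex T z {a, b}).Nonempty)
    (ecd : (Ex T z {c, d}).Nonempty)
    (hab : ∀ y ∈ closure (Ex T z {a, b}), (T y).ncard ≤ 3 ∨ T y = {a, b, e, f} ∧
      ((∀ w, dist w y = 1 → T w ⊆ T y → f ∈ T w) ∨ ∀ w, dist w y = 1 → T w ⊆ T y → e ∈ T w))
    (hcd : ∀ y ∈ closure (Ex T z {c, d}), (T y).ncard ≤ 3 ∨ T y = {c, d, e, f} ∧
      ((∀ w, dist w y = 1 → T w ⊆ T y → f ∈ T w) ∨ ∀ w, dist w y = 1 → T w ⊆ T y → e ∈ T w))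
    (adj : ∀ y y', dist y z = 1 → dist y' z = 1 → dist y y' = 1 → (T z)ᶜ ⊆ T y →
      (T z)ᶜ ⊆ T y' → (T y).ncard ≤ 3) : PreW (Xs T z a b c d e f) :=
  HC.preW ⟨C, eab, ecd, hab, hcd, adj⟩ hmn

end Vale.Agent.P032.H880
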