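import Vale.Agent.P032X.H821.NvE
import Vale.Agent.P032X.H880.PreC

/-!
# P032: no harmless special ends, counts as hypotheses

`Cnt T z`: the two counts of complementary ends of the centre `z` (`GP.count_special`, `GP.count_two` of
`H642/Rh.lean`).  `no_special_n`: if all points of the closures of the exact arcs of `S(z)` are harmless,
there are no ties and the cusp lemma holds at true end points, then they have at most three colours.  The
word of `S(z)` is `preW_of_hm`.
-/

open Set Filter Topology Metric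

noncomputable section

namespace Vale.Agent.P032.H880

open Vale.Agent.P032.Six Vale.Agent.P032.S5.H767 Vale.Agent.P032.S5.H349 Vale.Agent.P032.H350
open Vale.Agent.P032.H642 Vale.Agent.P032.H821

variable {U : Fin 6 → Set ℂ} {T : ℂ → Set (Fin 6)} {z v q y V : ℂ} {a b c d e f g p : Fin 6}

/-- the two counts of complementary ends -/
structure Cnt (T : ℂ → Set (Fin 6)) (z : ℂ) : Prop where
  special : ∀ {v q q' : ℂ} {a b c d g p : Fin 6}, GP T z v q a b c d g p →
    GP T z v q' a b c d g p → p ∈ T v → (∀ y, dist y v = 1 → T y ≠ {g, p}) →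
    (g ∉ T q ∨ St T z q {c, d} ∨ St T z v {a, b}) → q = q'
  two : ∀ {v q1 q2 q3 : ℂ} {a b c d g p : Fin 6}, GP T z v q1 a b c d g p →
    GP T z v q2 a b c d g p → GP T z v q3 a b c d g p →
    (p ∈ T v → ∀ y, dist y v = 1 → T y ≠ {g, p}) →
    (p ∉ T v ∨ g ∉ T q1 ∨ St T z q1 {c, d} ∨ St T z v {a, b}) →
    (p ∉ T v ∨ g ∉ T q2 ∨ St T z q2 {c, d} ∨ St T z v {a, b}) →
    q1 = q2 ∨ q1 = q3 ∨ q2 = q3

theorem cnt_of_h4 (h : Irr U T) (hmn : Mn4 U T) (h4 : ∀ x, (T x).ncard ≤ 4) (z : ℂ) : Cnt T z where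
  special := fun G G' hp nv he => G.count_special h hmn h4 G' hp nv he
  two := fun G1 G2 G3 nv h1 h2 => G1.count_two h hmn h4 G2 G3 nv h1 h2

theorem hm_flip {y : ℂ} (h : Hm T a b e f y) : Hm T a b f e y := by
  rcases h with h | ⟨hT, h⟩
  · exact Or.inl h
  · exact Or.inr ⟨hT.trans (swap4 a b e f), h.symm⟩

/-- no special end of type `ab` with the mark `e`, counts as hypothesis -/
theorem special_false_n (h : Irr U T) (K : Cnt T z)
    (C : Ctr U T z a b c d e f) (R : PreW (Xs T z a b c d e f)) (hab : GdE T z a b e f)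
    (hcd : GdE T z c d e f) (hnv : ∀ x, dist x v = 1 → T x ≠ {e, f}) (L1 : L1s T z a b c d e f)
    (L2 : L2s T z a b c d e f) (hv : v ∈ closure (Ex T z {a, b})) (hG : Gd T a b e f v)
    (hf : f ∈ T v) : False := by
  obtain ⟨⟨ab, ac, ad, ae, af⟩, ⟨bc, bd, be, bf⟩, ⟨cd, ce, cf⟩, ⟨de, df⟩, ef⟩ := C.sep
  have nd := C.nd
  have nd' : [a, b, c, d, f, e].Nodup := by
    have : [a, b, c, d, f, e].Perm [a, b, c, d, e, f] := by
      refine List.Perm.cons _ (List.Perm.cons _ (List.Perm.cons _ (List.Perm.cons _ ?_)))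
      exact List.Perm.swap _ _ _
    exact this.nodup_iff.2 nd
  -- complementary ends of `v`
  have hcl : ∀ {q}, (q ∈ closure (Ex T z {c, d}) ∧ Gd T c d f e q) → GP T z v q a b c d e f :=
    fun hq => gp_of nd C.pal hv hq.1 hG hq.2
  obtain ⟨q₁, q₂, q₃, q₄, hne, hq⟩ := ends4 C R hv hG.1 hf
  have hqc : ∀ q, (q = q₁ ∨ q = q₂ ∨ q = q₃ ∨ q = q₄) →
      q ∈ closure (Ex T z {c, d}) ∧ (Gd T c d e f q ∨ Gd T c d f e q) := by
    intro q hq'
    have h1 := hq q hq'
    exact ⟨H821.closure_of_st h1.1, hcd q (H821.closure_of_st h1.1) h1.2⟩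
  obtain ⟨r₁, r₂, r₃, ⟨n12, n13, n23⟩, hr⟩ := three_of_four (S := fun q => Gd T c d e f q) hne (by
    intro q q' hq1 hq2 s1 s2
    obtain ⟨k1, k2⟩ := hqc q hq1
    obtain ⟨k3, k5⟩ := hqc q' hq2
    exact K.special (hcl ⟨k1, k2.resolve_left s1⟩) (hcl ⟨k3, k5.resolve_left s2⟩)
      hf hnv (Or.inr (Or.inl (hq q hq1).1)))
  have hr' : ∀ q, (q = r₁ ∨ q = r₂ ∨ q = r₃) → q ∈ closure (Ex T z {c, d}) ∧ Gd T c d e f q :=
    fun q h1 => ⟨(hqc q (hr q h1).1).1, (hr q h1).2⟩
  obtain ⟨y0, hy0, hfy, hey⟩ := L1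
  rcases hy0 with hy0 | hy0
  · -- a clean end of type `abf`
    have hy0E : y0 ∉ Ex T z {a, b} := by
      intro h1
      rw [ex_self h1] at hfy
      rcases hfy with h2 | h2
      exacts [af h2.symm, bf h2.symm]
    have hGy : Gd T a b f e y0 := by
      rcases hab y0 hy0 hy0E with h1 | h1
      · exact absurd h1.1 hey
      · exact h1
    have G : ∀ q, (q = r₁ ∨ q = r₂ ∨ q = r₃) → GP T z y0 q a b c d f e := fun q h1 =>
      gp_of nd' C.pal hy0 (hr' q h1).1 hGy (hr' q h1).2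
    rcases K.two (G r₁ (by simp)) (G r₂ (by simp)) (G r₃ (by simp))
      (fun h1 => absurd h1 hey) (Or.inl hey) (Or.inl hey) with h1 | h1 | h1
    exacts [n12 h1, n13 h1, n23 h1]
  · -- a clean end of type `cdf`
    have clean : ∀ y ∈ closure (Ex T z {c, d}), f ∈ T y → e ∉ T y → Gd T c d f e y := by
      intro y hy k1 k2
      have hyE : y ∉ Ex T z {c, d} := by
        intro h1
        rw [ex_self h1] at k1
        rcases k1 with h2 | h2
        exacts [cf h2.symm, df h2.symm]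
      rcases hcd y hy hyE with h1 | h1
      · exact absurd h1.1 k2
      · exact h1
    have clean' : ∀ y ∈ closure (Ex T z {a, b}), e ∈ T y → f ∉ T y → Gd T a b e f y := by
      intro y hy k1 k2
      have hyE : y ∉ Ex T z {a, b} := by
        intro h1
        rw [ex_self h1] at k1
        rcases k1 with h2 | h2
        exacts [ae h2.symm, be h2.symm]
      rcases hab y hy hyE with h1 | h1
      · exact h1
      · exact absurd h1.1 k2
    have G0 : ∀ y ∈ closure (Ex T z {a, b}), Gd T a b e f y → GP T z y0 y c d a b f e :=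
      fun y hy hGy => (gp_of nd C.pal hy hy0 hGy (clean y0 hy0 hfy hey)).swap
    have uniq : ∀ V, V ∈ closure (Ex T z {a, b}) → e ∈ T V → f ∉ T V →
        ∀ y ∈ closure (Ex T z {a, b}), e ∈ T y → f ∉ T y → y = V := by
      intro V hV1 hV2 hV3 y hy1 hy2 hy3
      rcases K.two (G0 y hy1 (clean' y hy1 hy2 hy3))
        (G0 V hV1 (clean' V hV1 hV2 hV3)) (G0 v hv hG) (fun h1 => absurd h1 hey) (Or.inl hey)
        (Or.inl hey) with h1 | h1 | h1
      · exact h1
      · rw [h1] at hy3; exact absurd hf hy3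
      · rw [h1] at hV3; exact absurd hf hV3
    have uniq' : ∀ y ∈ closure (Ex T z {c, d}), f ∈ T y → e ∉ T y → y = y0 := by
      intro y hy1 hy2 hy3
      exact K.special (hcl ⟨hy1, clean y hy1 hy2 hy3⟩)
        (hcl ⟨hy0, clean y0 hy0 hfy hey⟩) hf hnv (Or.inl hy3)
    by_cases hV : ∃ V, V ∈ closure (Ex T z {a, b}) ∧ e ∈ T V ∧ f ∉ T V
    · obtain ⟨V, hV1, hV2, hV3⟩ := hV
      exact L2 V y0 (uniq V hV1 hV2 hV3) uniq'
    · refine L2 v y0 (fun y hy1 hy2 hy3 => absurd ⟨y, hy1, hy2, hy3⟩ hV) uniq'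

/-- infinitely many good ends of one mark are impossible, counts as hypothesis -/
theorem no_inf_n (h : Irr U T) (K : Cnt T z)
    (nd : [a, b, c, d, g, p].Nodup) (pal : T z = {a, b, c, d}) {M : Set ℂ} (hM : M.Infinite)
    (hMg : ∀ w ∈ M, St T z w {a, b} ∧ H821.Gd T w a b g p) {E1 E2 E3 : ℂ} (n12 : E1 ≠ E2)
    (n13 : E1 ≠ E3) (n23 : E2 ≠ E3)
    (hE : ∀ x, x = E1 ∨ x = E2 ∨ x = E3 → St T z x {c, d} ∧ (H821.Gd T x c d g p ∨ H821.Gd T x c d p g))
    (L1 : ∃ q, (q ∈ closure (Ex T z {a, b}) ∧ T q = {a, b, p}) ∨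
      (q ∈ closure (Ex T z {c, d}) ∧ T q = {c, d, p})) : False := by
  obtain ⟨w1, h1, w2, h2, w3, h3, k12, k13, k23⟩ := three_of_infinite hM
  have hn := nd
  simp only [List.nodup_cons, List.mem_cons, List.not_mem_nil, or_false, not_or, List.nodup_nil,
    and_true, not_false_eq_true] at hn
  obtain ⟨⟨ab, ac, ad, ag, ap⟩, ⟨bc, bd, bg, bp⟩, ⟨cd, cg, cp⟩, ⟨dg, dp⟩, gp⟩ := hn
  have three : ∀ {x y t : Fin 6} {q : ℂ}, T q = {x, y, t} → (T q).ncard ≤ 3 := by
    intro x y t q hq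
    rw [hq]
    have h1 := Set.ncard_insert_le x ({y, t} : Set (Fin 6))
    have h2 := Set.ncard_insert_le y ({t} : Set (Fin 6))
    rw [Set.ncard_singleton] at h2
    omega
  -- no second end of mark `p`
  have key : ∀ q, q ∈ closure (Ex T z {c, d}) → p ∈ T q → T q ⊆ {c, d, g, p} →
      Fc T q {c, d, p} → (g ∈ T q → ∀ y, dist y q = 1 → T y ≠ {p, g}) → False := by
    intro q hq hp hs hF hnv
    have G : ∀ w ∈ M, GP T z w q a b c d g p := fun w hw =>
      ⟨nd, pal, H821.closure_of_st (hMg w hw).1, hq, (hMg w hw).2.mem, hp, (hMg w hw).2.sub, hs,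
        (hMg w hw).2.fc, hF⟩
    rcases K.two (G w1 h1).swap (G w2 h2).swap (G w3 h3).swap hnv
      (Or.inr (Or.inr (Or.inl (hMg w1 h1).1))) (Or.inr (Or.inr (Or.inl (hMg w2 h2).1))) with
      h5 | h5 | h5
    · exact k12 h5
    · exact k13 h5
    · exact k23 h5
  have hE' : ∀ x, x = E1 ∨ x = E2 ∨ x = E3 → St T z x {c, d} ∧ H821.Gd T x c d g p := by
    intro x hx
    obtain ⟨s1, s2⟩ := hE x hx
    rcases s2 with s2 | s2
    · exact ⟨s1, s2⟩
    · refine (key x (H821.closure_of_st s1) s2.mem (s2.sub.trans ?_) s2.fc s2.nv).elim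
      intro i
      simp only [mem_insert_iff, mem_singleton_iff]
      tauto
  obtain ⟨q, ⟨hq, hT⟩ | ⟨hq, hT⟩⟩ := L1
  · -- a clean `ab`-end of mark `p`
    have hgq : g ∉ T q := by
      rw [hT]
      simp only [mem_insert_iff, mem_singleton_iff, not_or]
      exact ⟨fun h => ag h.symm, fun h => bg h.symm, gp⟩
    have G : ∀ x, x = E1 ∨ x = E2 ∨ x = E3 → GP T z q x a b c d p g := fun x hx =>
      ⟨nodup_swap nd, pal, hq, H821.closure_of_st (hE' x hx).1, by rw [hT]; simp, (hE' x hx).2.mem,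
        by rw [hT]; intro i; simp only [mem_insert_iff, mem_singleton_iff]; tauto,
        (hE' x hx).2.sub.trans (by intro i; simp only [mem_insert_iff, mem_singleton_iff]; tauto),
        (by rw [← hT]; exact fc_three h (three hT)), (hE' x hx).2.fc⟩
    rcases K.two (G E1 (Or.inl rfl)) (G E2 (Or.inr (Or.inl rfl)))
      (G E3 (Or.inr (Or.inr rfl))) (fun h5 => absurd h5 hgq) (Or.inl hgq) (Or.inl hgq) with
      h5 | h5 | h5
    · exact n12 h5
    · exact n13 h5
    · exact n23 h5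
  · refine key q hq (by rw [hT]; simp) ?_ ?_ ?_
    · rw [hT]; intro i; simp only [mem_insert_iff, mem_singleton_iff]; tauto
    · rw [← hT]; exact fc_three h (three hT)
    · intro h5
      rw [hT] at h5
      simp only [mem_insert_iff, mem_singleton_iff] at h5
      rcases h5 with h5 | h5 | h5
      · exact absurd h5.symm cg
      · exact absurd h5.symm dg
      · exact absurd h5 gp

/-- the cusp lemma at all special points of the closure, counts as hypothesis -/
theorem nvE_of_n (h : Irr U T) (hmn : Mn4 U T) (K : Cnt T z) (w1 : W1) (adj : Adj T z)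
    (C : Ctr U T z a b c d e f) (eab : (Ex T z {a, b}).Nonempty) (ecd : (Ex T z {c, d}).Nonempty)
    (hab : ∀ y ∈ closure (Ex T z {a, b}), Hm T a b e f y)
    (hcd : ∀ y ∈ closure (Ex T z {c, d}), Hm T c d e f y)
    (Kab : CuE T z a b e f) (Kcd : CuE T z c d e f) : NvE T z a b e f := by
  obtain ⟨⟨ab, ac, ad, ae, af⟩, ⟨bc, bd, be, bf⟩, ⟨cd, ce, cf⟩, ⟨de, df⟩, ef⟩ := C.sep
  intro V hV heV hfV x hx hTx
  have g1 := gdE_of h C ecd hab
  have g2 := gdE_of h C.swapAC eab hcd
  have R := preW_of_hm hmn C eab ecd hab hcd adj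
  have C' := ctr_swapEF C
  have R' := preW_of_hm hmn C' eab ecd (fun y hy => hm_flip (hab y hy))
    (fun y hy => hm_flip (hcd y hy)) adj
  have hVE : V ∉ Ex T z {a, b} := by
    intro h1
    rw [ex_self h1] at heV
    rcases heV with h2 | h2
    exacts [ae h2.symm, be h2.symm]
  have hTV : T V = {a, b, e, f} := by
    rcases g1 V hV hVE with h1 | h1
    · exact pal_of h hV h1.2.1 heV hfV
    · refine pal_of h hV (h1.2.1.trans ?_) heV hfV
      intro i; simp only [mem_insert_iff, mem_singleton_iff]; tauto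
  have hns : ¬ St T z V {a, b} := fun h1 => Kab V h1 hTV x hx hTx
  have hVP : T V ≠ {a, b} := by
    intro h1
    rw [h1] at heV
    rcases heV with h2 | h2
    exacts [ae h2.symm, be h2.symm]
  have hinf := ends_infinite h (Set.ncard_pair ab)
    (by rw [C.pal]; intro i; simp only [mem_insert_iff, mem_singleton_iff]; tauto) hV hVP hns
  -- ends of the other pair
  obtain ⟨E1, E2, E3, E4, ⟨n12, n13, -, n23, -, -⟩, hq⟩ := ends4 C R hV heV hfV
  have hE : ∀ x, x = E1 ∨ x = E2 ∨ x = E3 →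
      St T z x {c, d} ∧ (H821.Gd T x c d e f ∨ H821.Gd T x c d f e) := by
    intro x hx
    have h1 := hq x (by tauto)
    exact ⟨h1.1, gd_of_gdE h g2 Kcd h1.1 h1.2⟩
  -- clean ends of both marks
  have L : ∀ {e f : Fin 6}, Ctr U T z a b c d e f → GdE T z a b e f → GdE T z c d e f →
      L1s T z a b c d e f → ∃ q, (q ∈ closure (Ex T z {a, b}) ∧ T q = {a, b, f}) ∨
      (q ∈ closure (Ex T z {c, d}) ∧ T q = {c, d, f}) := by
    intro e f C g1 g2 L1
    obtain ⟨⟨ab, ac, ad, ae, af⟩, ⟨bc, bd, be, bf⟩, ⟨cd, ce, cf⟩, ⟨de, df⟩, ef⟩ := C.sep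
    have key : ∀ {a b : Fin 6} {y : ℂ}, a ≠ f → b ≠ f → GdE T z a b e f →
        y ∈ closure (Ex T z {a, b}) → f ∈ T y → e ∉ T y → T y = {a, b, f} := by
      intro a b y haf hbf hg hy hf he
      have hyE : y ∉ Ex T z {a, b} := by
        intro h1
        rw [ex_self h1] at hf
        rcases hf with h2 | h2
        exacts [haf h2.symm, hbf h2.symm]
      have hs : T y ⊆ {a, b, f, e} := by
        rcases hg y hy hyE with h1 | h1
        · exact absurd h1.1 he
        · exact h1.2.1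
      refine Subset.antisymm (fun i hi => ?_) ?_
      · rcases hs hi with h5 | h5 | h5 | h5
        · rw [h5]; simp
        · rw [h5]; simp
        · rw [h5]; simp
        · rw [mem_singleton_iff.1 h5] at hi; exact absurd hi he
      · have h2 := sub_of_closure h hy
        rintro i (rfl | rfl | hi)
        · exact h2 (by simp)
        · exact h2 (by simp)
        · rw [mem_singleton_iff.1 hi]; exact hf
    obtain ⟨q, hq | hq, h1, h2⟩ := L1
    · exact ⟨q, Or.inl ⟨hq, key af bf g1 hq h1 h2⟩⟩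
    · exact ⟨q, Or.inr ⟨hq, key cf df g2 hq h1 h2⟩⟩
  have sw : ∀ {a b : Fin 6}, GdE T z a b e f → GdE T z a b f e :=
    fun hg y hy hyE => (hg y hy hyE).symm
  have L1f := L C g1 g2 (l1s_of w1 R)
  have L1e := L C' (sw g1) (sw g2) (l1s_of w1 R')
  have hun : {w | Te T z w {a, b} ∧ T w ⊆ T V} ⊆
      {w | St T z w {a, b} ∧ H821.Gd T w a b e f} ∪ {w | St T z w {a, b} ∧ H821.Gd T w a b f e} := by
    rintro w ⟨hw, -⟩
    have hwE : w ∉ Ex T z {a, b} := fun h1 => hw.2.ne' (ex_self h1)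
    rcases gd_of_gdE h g1 Kab hw.1 hwE with h1 | h1
    · exact Or.inl ⟨hw.1, h1⟩
    · exact Or.inr ⟨hw.1, h1⟩
  rcases Set.infinite_union.1 (hinf.mono hun) with h1 | h1
  · exact no_inf_n h K C.nd C.pal h1 (fun w hw => hw) n12 n13 n23 hE L1f
  · exact no_inf_n h K C'.nd C.pal h1 (fun w hw => hw) n12 n13 n23
      (fun x hx => ⟨(hE x hx).1, (hE x hx).2.symm⟩) L1e

/-- no special ends, counts and word facts as hypotheses -/
theorem no_special_c (h : Irr U T) (hmn : Mn4 U T) (K : Cnt T z) (w1 : W1) (w2 : W2) (adj : Adj T z)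
    (C : Ctr U T z a b c d e f) (eab : (Ex T z {a, b}).Nonempty) (ecd : (Ex T z {c, d}).Nonempty)
    (hab : ∀ y ∈ closure (Ex T z {a, b}), Hm T a b e f y)
    (hcd : ∀ y ∈ closure (Ex T z {c, d}), Hm T c d e f y)
    (nab : NvE T z a b e f) (ncd : NvE T z c d e f) :
    ∀ y, (y ∈ closure (Ex T z {a, b}) ∨ y ∈ closure (Ex T z {c, d})) → (T y).ncard ≤ 3 := by
  -- one type
  have main : ∀ {a b c d e f : Fin 6}, Ctr U T z a b c d e f → (Ex T z {a, b}).Nonempty →
      (Ex T z {c, d}).Nonempty → (∀ y ∈ closure (Ex T z {a, b}), Hm T a b e f y) →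
      (∀ y ∈ closure (Ex T z {c, d}), Hm T c d e f y) → NvE T z a b e f →
      ∀ y ∈ closure (Ex T z {a, b}), (T y).ncard ≤ 3 := by
    intro a b c d e f C eab ecd hab hcd nab y hy
    by_contra hcon
    obtain ⟨⟨ab, ac, ad, ae, af⟩, ⟨bc, bd, be, bf⟩, ⟨cd, ce, cf⟩, ⟨de, df⟩, ef⟩ := C.sep
    obtain ⟨hT, h1⟩ := (hab y hy).resolve_left hcon
    have he : e ∈ T y := by rw [hT]; simp
    have hf : f ∈ T y := by rw [hT]; simp
    have g1 := gdE_of h C ecd hab
    have g2 := gdE_of h C.swapAC eab hcd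
    have C' := ctr_swapEF C
    have R := preW_of_hm hmn C eab ecd hab hcd adj
    have R' := preW_of_hm hmn C' eab ecd (fun y hy => hm_flip (hab y hy))
      (fun y hy => hm_flip (hcd y hy)) adj
    have sw : ∀ {a b e f : Fin 6}, GdE T z a b e f → GdE T z a b f e :=
      fun hg y hy hyE => (hg y hy hyE).symm
    rcases h1 with h1 | h1
    · exact special_false_n h K C R g1 g2 (nab y hy he hf) (l1s_of w1 R) (l2s_of w2 R) hy
        (gd_of_one af bf ef hT h1) hf
    · refine special_false_n h K C' R' (sw g1) (sw g2) (fun x hx hTx => ?_) (l1s_of w1 R')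
        (l2s_of w2 R') hy
        (gd_of_one ae be ef.symm ?_ h1) he
      · exact nab y hy he hf x hx (hTx.trans (Set.pair_comm _ _))
      · rw [hT]; ext i; simp only [mem_insert_iff, mem_singleton_iff]; tauto
  rintro y (hy | hy)
  · exact main C eab ecd hab hcd nab y hy
  · exact main C.swapAC ecd eab hcd hab ncd y hy

/-- **No special ends**: the cusp lemma at true end points, counts and word facts as hypotheses -/
theorem no_special_w (h : Irr U T) (hmn : Mn4 U T) (K : Cnt T z) (w1 : W1) (w2 : W2)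
    (C : Ctr U T z a b c d e f) (eab : (Ex T z {a, b}).Nonempty) (ecd : (Ex T z {c, d}).Nonempty)
    (hab : ∀ y ∈ closure (Ex T z {a, b}), Hm T a b e f y)
    (hcd : ∀ y ∈ closure (Ex T z {c, d}), Hm T c d e f y) (adj : Adj T z)
    (Kab : CuE T z a b e f) (Kcd : CuE T z c d e f) :
    ∀ y, (y ∈ closure (Ex T z {a, b}) ∨ y ∈ closure (Ex T z {c, d})) → (T y).ncard ≤ 3 :=
  no_special_c h hmn K w1 w2 adj C eab ecd hab hcd
    (nvE_of_n h hmn K w1 adj C eab ecd hab hcd Kab Kcd)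
    (nvE_of_n h hmn K w1 adj C.swapAC ecd eab hcd hab Kcd Kab)

end Vale.Agent.P032.H880
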